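import Vale.Agent.Lib.CT.Basic

/-!
List operations and binary arithmetic are computable in polynomial time.
-/

open Function

namespace Vale.Agent.Lib.TM

variable {α β γ δ σ : Type} [Enc α] [Enc β] [Enc γ] [Enc δ] [Enc σ] {e : ℕ}

lemma foldl_cons_eq {β γ : Type} (f : β → γ) (l : List β) (s : List γ) :
    l.foldl (fun s x => f x :: s) s = (l.map f).reverse ++ s := by
  induction l generalizing s with
  | nil => rfl
  | cons b l ih => simp [ih]

theorem CT.revMap {f : α → β → γ} {l : α → List β} {s : α → List γ}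
    (hf : CT e fun p : α × β => f p.1 p.2) (hl : CT e l) (hs : CT e s) :
    CT e fun a => ((l a).map (f a)).reverse ++ s a := by
  have h1 : CT e fun p : α × List γ × β => f p.1 p.2.2 :=
    hf.comp (g := fun p : α × List γ × β => (p.1, p.2.2)) (by fun_prop)
  exact (CT.foldl (g := fun a s x => f a x :: s) (by fun_prop) hs hl
    (hf.size.add (Bd.const 1)) (fun a s x => by simp; omega)).of_eq fun a => foldl_cons_eq _ _ _

@[fun_prop]
theorem CT.reverse {l : α → List β} (hl : CT e l) : CT e fun a => (l a).reverse :=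
  (CT.revMap (f := fun _ x => x) (by fun_prop) hl (CT.const [])).of_eq fun a => by simp

@[fun_prop]
theorem CT.append {l s : α → List β} (hl : CT e l) (hs : CT e s) : CT e fun a => l a ++ s a :=
  (CT.revMap (f := fun _ x => x) (by fun_prop) hl.reverse hs).of_eq fun a => by simp

@[fun_prop]
theorem CT.map {f : α → β → γ} {l : α → List β}
    (hf : CT e fun p : α × β => f p.1 p.2) (hl : CT e l) : CT e fun a => (l a).map (f a) :=
  (CT.revMap hf hl (CT.const [])).reverse.of_eq fun a => by simp

@[fun_prop]
theorem CT.flatten {l : α → List (List β)} (hl : CT e l) : CT e fun a => (l a).flatten :=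
  (CT.foldl (g := fun _ s x => s ++ x) (by fun_prop) (CT.const []) hl
    (G := fun p => sz p.2) (CT.snd (e := 0) CT.id).size
    (fun a s x => by have := sz_append s x; simp; omega)).of_eq fun a => by
      have : ∀ (r : List (List β)) (s : List β), r.foldl (fun s x => s ++ x) s = s ++ r.flatten := by
        intro r
        induction r with
        | nil => simp
        | cons x r ih => intro s; simp [ih]
      simp [this]

@[fun_prop]
theorem CT.flatMap {f : α → β → List γ} {l : α → List β}
    (hf : CT e fun p : α × β => f p.1 p.2) (hl : CT e l) : CT e fun a => (l a).flatMap (f a) :=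
  (CT.map hf hl).flatten.of_eq fun _ => List.flatMap_def.symm

@[fun_prop]
theorem CT.filter {f : α → β → Bool} {l : α → List β}
    (hf : CT e fun p : α × β => f p.1 p.2) (hl : CT e l) : CT e fun a => (l a).filter (f a) :=
  (CT.flatMap (f := fun a x => bif f a x then [x] else []) (by fun_prop) hl).of_eq fun a => by
    induction l a with
    | nil => rfl
    | cons x r ih => cases h : f a x <;> simp [h, ih]

@[fun_prop]
theorem CT.bits {f : α → ℕ} (hf : CT e f) : CT e fun a => (f a).bits :=
  hf.of_enc_eq fun _ => rfl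

@[fun_prop]
theorem CT.div2 {f : α → ℕ} (hf : CT e f) : CT e fun a => (f a).div2 :=
  hf.bits.tail.of_enc_eq fun a => by rw [enc_nat, Nat.div2_bits_eq_tail]

@[fun_prop]
theorem CT.bodd {f : α → ℕ} (hf : CT e f) : CT e fun a => (f a).bodd :=
  (hf.bits.headD (CT.const false)).of_eq fun a => by
    rw [Nat.bodd_eq_bits_head]; cases (f a).bits <;> rfl

@[fun_prop]
theorem CT.bit {b : α → Bool} {f : α → ℕ} (hb : CT e b) (hf : CT e f) :
    CT e fun a => Nat.bit (b a) (f a) :=
  ((hf.bits.isEmpty.and hb.not).cond (CT.const []) (hb.cons hf.bits)).of_enc_eq fun a => by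
    rw [enc_nat]
    congr 1
    by_cases h : f a = 0 → b a = true
    · rw [Nat.bits_append_bit _ _ h]
      by_cases h0 : f a = 0
      · simp [h h0]
      · have : (f a).bits ≠ [] := by
          intro h1
          have := Nat.size_eq_bits_len (f a)
          rw [h1] at this
          exact h0 (Nat.size_eq_zero.mp this.symm)
        cases hh : (f a).bits with
        | nil => exact absurd hh this
        | cons x r => rfl
    · push Not at h
      simp [h.1, h.2]

lemma size_bit_le (b : Bool) (n : ℕ) : (Nat.bit b n).size ≤ n.size + 1 := by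
  by_cases h : Nat.bit b n = 0
  · simp [h]
  · rw [Nat.size_bit h]

lemma sz_bit_le (b : Bool) (n : ℕ) : sz (Nat.bit b n) ≤ sz n + 6 := by
  have := size_bit_le b n
  rw [sz_nat, sz_nat]; omega

lemma sz_div2_le (n : ℕ) : sz n.div2 ≤ sz n := sz_mono (Nat.div_le_self _ _)

/-- Reading pairs of bits, most significant first. -/
def val2 (p : ℕ × ℕ) (l : List (Bool × Bool)) : ℕ × ℕ :=
  l.foldl (fun p x => (Nat.bit x.1 p.1, Nat.bit x.2 p.2)) p

lemma le_val2 (l : List (Bool × Bool)) (p : ℕ × ℕ) : p.1 ≤ (val2 p l).1 ∧ p.2 ≤ (val2 p l).2 := by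
  induction l generalizing p with
  | nil => exact ⟨le_rfl, le_rfl⟩
  | cons x l ih =>
    have := ih (Nat.bit x.1 p.1, Nat.bit x.2 p.2)
    simp only [Nat.bit_val] at this
    simp only [val2, List.foldl_cons, Nat.bit_val] at this ⊢
    omega

/-- Splitting off low bits. -/
def split2 (s : (ℕ × ℕ) × List (Bool × Bool)) : (ℕ × ℕ) × List (Bool × Bool) :=
  ((s.1.1.div2, s.1.2.div2), (s.1.1.bodd, s.1.2.bodd) :: s.2)

lemma split2_spec {X : Type} (c : List X) (s : (ℕ × ℕ) × List (Bool × Bool)) :
    (c.foldl (fun s _ => split2 s) s).1 = (s.1.1 / 2 ^ c.length, s.1.2 / 2 ^ c.length) ∧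
      val2 (c.foldl (fun s _ => split2 s) s).1 (c.foldl (fun s _ => split2 s) s).2 =
        val2 s.1 s.2 := by
  induction c generalizing s with
  | nil => simp
  | cons x c ih =>
    obtain ⟨h1, h2⟩ := ih (split2 s)
    simp only [List.foldl_cons]
    refine ⟨h1.trans ?_, h2.trans ?_⟩
    · simp [split2, Nat.div2_val, Nat.div_div_eq_div_mul, pow_succ']
    · simp [split2, val2, Nat.bit_bodd_div2]

/-- Simultaneous binary recursion on two numbers. -/
theorem CT.binRec {G : α → ℕ → ℕ → σ} {h : α → σ → Bool × Bool → σ} {m n : α → ℕ} {B : α → ℕ}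
    (hh : CT e fun p : α × σ × Bool × Bool => h p.1 p.2.1 p.2.2) (h0 : CT e fun a => G a 0 0)
    (hm : CT e m) (hn : CT e n) (hB : Bd 0 B)
    (hG : ∀ a x y u v, G a (Nat.bit x u) (Nat.bit y v) = h a (G a u v) (x, y))
    (hb : ∀ a u v, u ≤ m a → v ≤ n a → sz (G a u v) ≤ B a) : CT e fun a => G a (m a) (n a) := by
  let D : α → (ℕ × ℕ) × List (Bool × Bool) := fun a =>
    ((m a).bits ++ (n a).bits).foldl (fun s _ => split2 s) ((m a, n a), [])
  have hD : CT e D := CT.foldl (g := fun _ s _ => split2 s) (by unfold split2; fun_prop)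
    (by fun_prop) (by fun_prop) (Bd.const 12) fun a s x => by
      have h1 := sz_div2_le s.1.1
      have h2 := sz_div2_le s.1.2
      simp only [split2, sz_pair, sz_cons, sz_bool, sz_prod s, sz_prod s.1]
      omega
  have hv : ∀ a, val2 (0, 0) (D a).2 = (m a, n a) := by
    intro a
    obtain ⟨h1, h2⟩ := split2_spec ((m a).bits ++ (n a).bits) ((m a, n a), [])
    have h3 : (D a).1 = (0, 0) := by
      refine h1.trans ?_
      rw [List.length_append, Nat.size_eq_bits_len, Nat.size_eq_bits_len]
      congr 1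
      · exact Nat.div_eq_of_lt (Nat.size_le.mp (by simp))
      · exact Nat.div_eq_of_lt (Nat.size_le.mp (by simp))
    rw [← h3]; exact h2
  have hf : ∀ a r p, r.foldl (h a) (G a p.1 p.2) = G a (val2 p r).1 (val2 p r).2 := by
    intro a r
    induction r with
    | nil => intro p; rfl
    | cons x r ih =>
      intro p
      rw [List.foldl_cons, ← hG]
      exact ih (Nat.bit x.1 p.1, Nat.bit x.2 p.2)
  refine (CT.foldl_inv hh h0 hD.snd hB
    (fun a s r => ∃ p : ℕ × ℕ, s = G a p.1 p.2 ∧ val2 p r = (m a, n a))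
    (fun a => ⟨(0, 0), rfl, hv a⟩) ?_ ?_).of_eq fun a => ?_
  · rintro a s x r ⟨p, rfl, hp⟩
    exact ⟨(Nat.bit x.1 p.1, Nat.bit x.2 p.2), (hG a _ _ _ _).symm, hp⟩
  · rintro a s r ⟨p, rfl, hp⟩
    have := le_val2 r p
    rw [hp] at this
    exact hb a _ _ this.1 this.2
  · rw [hf a _ (0, 0), hv]

lemma sz_le_of_lt {x k : ℕ} (h : x < 2 ^ k) : sz x ≤ 6 * k + 1 := by
  have := Nat.size_le.mpr h
  rw [sz_nat]; omega

lemma sz_add_le (x y : ℕ) : sz (x + y) ≤ sz x + sz y + 5 := by
  have h1 := Nat.lt_size_self x
  have h2 := Nat.lt_size_self y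
  have h3 : 2 ^ x.size ≤ 2 ^ (x.size + y.size) := Nat.pow_le_pow_right (by norm_num) (by omega)
  have h4 : 2 ^ y.size ≤ 2 ^ (x.size + y.size) := Nat.pow_le_pow_right (by norm_num) (by omega)
  have := sz_le_of_lt (x := x + y) (k := x.size + y.size + 1) (by rw [pow_succ]; omega)
  rw [sz_nat x, sz_nat y]; omega

lemma sz_mul_le (x y : ℕ) : sz (x * y) ≤ sz x + sz y := by
  have h1 := Nat.lt_size_self x
  have h2 := Nat.lt_size_self y
  have := sz_le_of_lt (x := x * y) (k := x.size + y.size)
    (by rw [pow_add]; exact Nat.mul_lt_mul'' h1 h2)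
  rw [sz_nat x, sz_nat y]; omega

@[simp] lemma sz_one : sz (1 : ℕ) = 7 := by rw [sz_nat]; rfl
@[simp] lemma sz_zero : sz (0 : ℕ) = 1 := by rw [sz_nat]; rfl

@[fun_prop]
theorem CT.add {m n : α → ℕ} (hm : CT e m) (hn : CT e n) : CT e fun a => m a + n a := by
  refine (CT.binRec (G := fun _ u v => (u + v, u + v + 1)) (h := fun _ s x =>
    bif x.1 && x.2 then (Nat.bit false s.2, Nat.bit true s.2) else
    bif x.1 || x.2 then (Nat.bit true s.1, Nat.bit false s.2) else
      (Nat.bit false s.1, Nat.bit true s.1)) (by fun_prop) (by fun_prop) hm hn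
      (((Bd.const 2).mul (hm.size.add hn.size)).add (Bd.const 30)) ?_ ?_).fst
  · intro a x y u v
    cases x <;> cases y <;> simp [Nat.bit_val] <;> omega
  · intro a u v hu hv
    have h1 := sz_add_le u v
    have h2 := sz_add_le (u + v) 1
    have h3 := sz_mono hu
    have h4 := sz_mono hv
    simp only [sz_pair, sz_one] at *
    omega

theorem CT.subAux {m n : α → ℕ} (hm : CT e m) (hn : CT e n) : CT e fun a =>
    ((m a - n a, m a - (n a + 1)), (Nat.ble (n a) (m a), Nat.ble (n a + 1) (m a))) := by
  refine (CT.binRec (G := fun _ u v => ((u - v, u - (v + 1)), (Nat.ble v u, Nat.ble (v + 1) u)))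
    (h := fun _ s x =>
    bif x.1 && !x.2 then
      ((bif s.2.1 then Nat.bit true s.1.1 else 0, Nat.bit false s.1.1), (s.2.1, s.2.1)) else
    bif !x.1 && x.2 then
      ((bif s.2.2 then Nat.bit true s.1.2 else 0, Nat.bit false s.1.2), (s.2.2, s.2.2)) else
      ((Nat.bit false s.1.1, bif s.2.2 then Nat.bit true s.1.2 else 0), (s.2.1, s.2.2)))
      (by fun_prop) (by fun_prop) hm hn
      (((Bd.const 2).mul hm.size).add (Bd.const 30)) ?_ ?_)
  · intro a x y u v
    have e1 : ∀ p q : ℕ, Nat.ble p q = decide (p ≤ q) := fun p q => by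
      rw [Bool.eq_iff_iff]; simp
    cases x <;> cases y <;> simp only [Nat.bit_val, e1, Bool.cond_decide] <;>
      simp <;> (try split_ifs) <;> omega
  · intro a u v hu hv
    have h1 := sz_mono (show u - v ≤ m a by omega)
    have h2 := sz_mono (show u - (v + 1) ≤ m a by omega)
    simp only [sz_pair, sz_bool] at *
    omega

@[fun_prop]
theorem CT.sub {m n : α → ℕ} (hm : CT e m) (hn : CT e n) : CT e fun a => m a - n a :=
  (hm.subAux hn).fst.fst

@[fun_prop]
theorem CT.ble {m n : α → ℕ} (hm : CT e m) (hn : CT e n) : CT e fun a => Nat.ble (m a) (n a) :=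
  (hn.subAux hm).snd.fst

@[fun_prop]
theorem CT.blt {m n : α → ℕ} (hm : CT e m) (hn : CT e n) : CT e fun a => Nat.blt (m a) (n a) :=
  (hn.subAux hm).snd.snd

@[fun_prop]
theorem CT.beq {m n : α → ℕ} (hm : CT e m) (hn : CT e n) : CT e fun a => Nat.beq (m a) (n a) :=
  ((hm.ble hn).and (hn.ble hm)).of_eq fun a => by
    rw [Bool.eq_iff_iff]; simp; omega

@[fun_prop]
theorem CT.max {m n : α → ℕ} (hm : CT e m) (hn : CT e n) : CT e fun a => max (m a) (n a) :=
  ((hm.ble hn).cond hn hm).of_eq fun a => by
    cases h : Nat.ble (m a) (n a)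
    · have : ¬ m a ≤ n a := by rw [← Nat.ble_eq, h]; simp
      simp; omega
    · have : m a ≤ n a := by rw [← Nat.ble_eq, h]
      simp; omega

@[fun_prop]
theorem CT.min {m n : α → ℕ} (hm : CT e m) (hn : CT e n) : CT e fun a => min (m a) (n a) :=
  ((hm.ble hn).cond hm hn).of_eq fun a => by
    cases h : Nat.ble (m a) (n a)
    · have : ¬ m a ≤ n a := by rw [← Nat.ble_eq, h]; simp
      simp; omega
    · have : m a ≤ n a := by rw [← Nat.ble_eq, h]
      simp; omega

@[fun_prop]
theorem CT.mul {m n : α → ℕ} (hm : CT e m) (hn : CT e n) : CT e fun a => m a * n a := by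
  refine (CT.binRec (G := fun a u _ => u * n a) (h := fun a s x =>
    bif x.1 then Nat.bit false s + n a else Nat.bit false s) (by fun_prop) (by simp; fun_prop) hm
      (CT.const 0) (hm.size.add hn.size) ?_ ?_)
  · intro a x y u v
    cases x <;> simp [Nat.bit_val] <;> ring
  · intro a u v hu hv
    have h1 := sz_mul_le u (n a)
    have h3 := sz_mono hu
    omega

theorem CT.divMod {m n : α → ℕ} (hm : CT e m) (hn : CT e n) :
    CT e fun a => (m a / n a, m a % n a) := by
  refine (CT.binRec (G := fun a u _ => (u / n a, u % n a)) (h := fun a s x =>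
    bif Nat.ble (n a) (Nat.bit x.1 s.2) && Nat.blt 0 (n a) then
      (Nat.bit true s.1, Nat.bit x.1 s.2 - n a)
    else (Nat.bit false s.1, Nat.bit x.1 s.2)) (by fun_prop) (by simp; fun_prop) hm
      (CT.const 0) (((Bd.const 2).mul hm.size).add (Bd.const 1)) ?_ ?_)
  · intro a x y u v
    have e1 : ∀ p q : ℕ, Nat.ble p q = decide (p ≤ q) := fun p q => by
      rw [Bool.eq_iff_iff]; simp
    have e2 : ∀ p q : ℕ, Nat.blt p q = decide (p < q) := fun p q => by
      rw [Bool.eq_iff_iff]; simp
    simp only [e1, e2, ← Bool.decide_and, Bool.cond_decide, Nat.bit_val, Bool.toNat_true,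
      Bool.toNat_false]
    have hx : x.toNat ≤ 1 := Bool.toNat_le x
    generalize x.toNat = c at hx
    generalize n a = d
    rcases Nat.eq_zero_or_pos d with rfl | hd
    · simp
    have h1 := Nat.div_add_mod u d
    have h2 := Nat.mod_lt u hd
    generalize u / d = q at *
    generalize u % d = r at *
    subst h1
    split_ifs with h
    · have := (Nat.div_mod_unique (a := 2 * (d * q + r) + c) (d := 2 * q + 1)
        (c := 2 * r + c - d) hd).mpr ⟨by ring_nf; omega, by omega⟩
      rw [this.1, this.2]
    · have := (Nat.div_mod_unique (a := 2 * (d * q + r) + c) (d := 2 * q + 0)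
        (c := 2 * r + c) hd).mpr ⟨by ring_nf, by omega⟩
      rw [this.1, this.2]
  · intro a u v hu hv
    have h1 := sz_mono ((Nat.div_le_self u (n a)).trans hu)
    have h2 := sz_mono ((Nat.mod_le u (n a)).trans hu)
    simp only [sz_pair]
    omega

@[fun_prop]
theorem CT.div {m n : α → ℕ} (hm : CT e m) (hn : CT e n) : CT e fun a => m a / n a :=
  (hm.divMod hn).fst

@[fun_prop]
theorem CT.mod {m n : α → ℕ} (hm : CT e m) (hn : CT e n) : CT e fun a => m a % n a :=
  (hm.divMod hn).snd

lemma sz_le_self (n : ℕ) : sz n ≤ 6 * n + 1 := sz_le_of_lt Nat.lt_two_pow_self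

@[fun_prop]
theorem CT.length {l : α → List β} (hl : CT e l) : CT e fun a => (l a).length :=
  (CT.foldl (g := fun _ s _ => s + 1) (by fun_prop) (CT.const 0) hl (Bd.const 12)
    (fun a s x => by have := sz_add_le s 1; simp at this ⊢; omega)).of_eq fun a => by
      have : ∀ (r : List β) (k : ℕ), r.foldl (fun s _ => s + 1) k = k + r.length := by
        intro r
        induction r with
        | nil => simp
        | cons x r ih => intro k; simp [ih]; omega
      simp [this]

@[fun_prop]
theorem CT.natSize {f : α → ℕ} (hf : CT e f) : CT e fun a => (f a).size :=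
  hf.bits.length.of_eq fun _ => Nat.size_eq_bits_len _

lemma CT.bd_length {l : α → List β} (hl : CT e l) : Bd 0 fun a => (l a).length :=
  hl.size.of_le fun _ => (length_lt_sz _).le

lemma CT.bd_size {f : α → ℕ} (hf : CT e f) : Bd 0 fun a => (f a).size :=
  hf.size.of_le fun a => by rw [sz_nat]; omega

@[fun_prop]
theorem CT.sum {l : α → List ℕ} (hl : CT e l) : CT e fun a => (l a).sum :=
  (CT.foldl (g := fun _ s x => s + x) (by fun_prop) (CT.const 0) hl
    (G := fun p => sz p.2 + 5) ((CT.snd (e := 0) CT.id).size.add (Bd.const 5))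
    (fun a s x => by have := sz_add_le s x; simp; omega)).of_eq fun a => List.sum_eq_foldl.symm

@[fun_prop]
theorem CT.prod {l : α → List ℕ} (hl : CT e l) : CT e fun a => (l a).prod :=
  (CT.foldl (g := fun _ s x => s * x) (by fun_prop) (CT.const 1) hl
    (G := fun p => sz p.2) (CT.snd (e := 0) CT.id).size
    (fun a s x => sz_mul_le s x)).of_eq fun a => List.prod_eq_foldl.symm

@[fun_prop]
theorem CT.drop {l : α → List β} {n : α → ℕ} (hn : CT e n) (hl : CT e l) :
    CT e fun a => (l a).drop (n a) := by
  have h := CT.foldl (g := fun _ (s : ℕ × List β) (_ : β) =>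
      bif Nat.blt 0 s.1 then (s.1 - 1, s.2.tail) else s) (by fun_prop) (hn.mk hl) hl (Bd.const 0)
    (fun a s x => by
      have h1 := sz_mono (Nat.sub_le s.1 1)
      have h2 := sz_tail s.2
      cases Nat.blt 0 s.1 <;> simp [sz_prod s]
      omega)
  refine h.snd.of_eq fun a => ?_
  have : ∀ (c : List β) (s : ℕ × List β), s.2.length ≤ c.length → (c.foldl (fun s _ =>
      bif Nat.blt 0 s.1 then (s.1 - 1, s.2.tail) else s) s).2 = s.2.drop s.1 := by
    intro c
    induction c with
    | nil => intro s hs; simp at hs; simp [hs]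
    | cons x c ih =>
      rintro ⟨k, r⟩ hs
      cases k with
      | zero =>
        have : ∀ c : List β, c.foldl (fun s _ => bif Nat.blt 0 s.1 then (s.1 - 1, s.2.tail)
            else s) ((0, r) : ℕ × List β) = (0, r) := by
          intro c
          induction c with
          | nil => rfl
          | cons x c ih => exact ih
        rw [this]; rfl
      | succ k =>
        rw [List.foldl_cons]
        refine (ih (k, r.tail) (by simp at hs ⊢; omega)).trans ?_
        simp
  exact this _ _ le_rfl

@[fun_prop]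
theorem CT.getD {l : α → List β} {n : α → ℕ} {d : α → β} (hl : CT e l) (hn : CT e n)
    (hd : CT e d) : CT e fun a => (l a).getD (n a) (d a) :=
  ((hn.drop hl).headD hd).of_eq fun a => by
    simp [List.getD_eq_getElem?_getD, List.headD_eq_head?_getD]

/-- The list `0, …, n - 1` for polynomially bounded `n`. -/
theorem CT.range {n : α → ℕ} (hn : CT e n) (hB : Bd 0 n) : CT e fun a => List.range (n a) := by
  let step : ℕ × List ℕ → ℕ × List ℕ := fun s => (s.1 - 1, (s.1 - 1) :: s.2)
  have key : ∀ a k, k ≤ n a → step^[k] (n a, []) = (n a - k, List.range' (n a - k) k) := by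
    intro a k
    induction k with
    | zero => simp
    | succ k ih =>
      intro hk
      rw [iterate_succ_apply', ih (by omega), List.range'_succ]
      simp only [step]
      rw [show n a - k - 1 = n a - (k + 1) by omega, show n a - (k + 1) + 1 = n a - k by omega]
  have h := CT.iterate (e := e) (step := step) (go := fun s => Nat.blt 0 s.1)
    (init := fun a => (n a, [])) (N := n)
    (B := fun a => sz (n a) + (n a * (sz (n a) + 1) + 1) + 1) (by fun_prop) (by fun_prop)
    (by fun_prop) hB.up ((hn.size.add ((hB.mul (hn.size.add (Bd.const 1))).add (Bd.const 1))).add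
      (Bd.const 1))
    (fun a k hk => by simp [key a k hk.le, hk]) (fun a => by simp [key a _ le_rfl, Nat.blt]; rfl)
    (fun a k hk => by
      have h1 := sz_mono (Nat.sub_le (n a) k)
      have h2 := sz_list_le (l := List.range' (n a - k) k) (B := sz (n a)) fun x hx =>
        sz_mono (by simp at hx; omega)
      have h3 := Nat.mul_le_mul_right (sz (n a) + 1) hk
      simp only [key a k hk, sz_pair, List.length_range'] at *
      omega)
  exact h.snd.of_eq fun a => by simp [key a _ le_rfl, List.range_eq_range']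

@[fun_prop]
theorem CT.range_length {l : α → List β} (hl : CT e l) : CT e fun a => List.range (l a).length :=
  hl.length.range hl.bd_length

/-- Powers with polynomially bounded exponent. -/
theorem CT.pow {m n : α → ℕ} (hm : CT e m) (hn : CT e n) (hB : Bd 0 n) :
    CT e fun a => m a ^ n a :=
  (CT.map (f := fun a _ => m a) (by fun_prop) (hn.range hB)).prod.of_eq fun a => by simp

end Vale.Agent.Lib.TM
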