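import Vale.Agent.Lib.CT.Tree

/-!
Typed computability with time bounds. `CT e f` says that `f` is computed by a stack program in time
`2 ^ (C * (log n) ^ (e + 1))` with output of polynomial size: `e = 0` is polynomial time and
`e = 1` is time `2 ^ O(log ^ 2 n)`.
-/

open Function

namespace Vale.Agent.Lib.TM

/-- Encodings as trees. -/
class Enc (α : Type) where
  /-- the tree of a value -/
  enc : α → Tr

export Enc (enc)

instance : Enc Tr := ⟨id⟩

instance : Enc Bool :=
  ⟨fun b => bif b then .cons (.cons .nil .nil) .nil else .cons .nil (.cons .nil .nil)⟩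

instance {α β : Type} [Enc α] [Enc β] : Enc (α × β) := ⟨fun p => .cons (enc p.1) (enc p.2)⟩

/-- The tree of a list. -/
def encList {α : Type} [Enc α] : List α → Tr
  | [] => .nil
  | x :: l => .cons (enc x) (encList l)

instance {α : Type} [Enc α] : Enc (List α) := ⟨encList⟩

instance : Enc ℕ := ⟨fun n => enc n.bits⟩

variable {α β γ δ σ : Type} [Enc α] [Enc β] [Enc γ] [Enc δ] [Enc σ] {e : ℕ}

lemma enc_tr (x : Tr) : enc x = x := rfl
lemma enc_pair (a : α) (b : β) : enc (a, b) = .cons (enc a) (enc b) := rfl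
lemma enc_nil : enc ([] : List α) = .nil := rfl
lemma enc_cons (a : α) (l : List α) : enc (a :: l) = .cons (enc a) (enc l) := rfl
lemma enc_nat (n : ℕ) : enc n = enc n.bits := rfl

/-- Size of a value: the length of its code. -/
def sz (a : α) : ℕ := (enc a).size

lemma sz_pos (a : α) : 0 < sz a := Tr.size_pos _
@[simp] lemma sz_bool (b : Bool) : sz b = 5 := by cases b <;> rfl
@[simp] lemma sz_pair (a : α) (b : β) : sz (a, b) = sz a + sz b + 1 := Tr.size_cons _ _
@[simp] lemma sz_nil : sz ([] : List α) = 1 := rfl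
@[simp] lemma sz_cons (a : α) (l : List α) : sz (a :: l) = sz a + sz l + 1 := Tr.size_cons _ _
lemma sz_prod (p : α × β) : sz p = sz p.1 + sz p.2 + 1 := Tr.size_cons _ _

lemma sz_bits (l : List Bool) : sz l = 6 * l.length + 1 := by
  induction l with
  | nil => rfl
  | cons b l ih => simp [ih]; ring

lemma sz_nat (n : ℕ) : sz n = 6 * n.size + 1 := by
  rw [← Nat.size_eq_bits_len, ← sz_bits]; rfl

lemma sz_mono {m n : ℕ} (h : m ≤ n) : sz m ≤ sz n := by
  have := Nat.size_le_size h
  rw [sz_nat, sz_nat]; omega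

lemma sz_append (l l' : List α) : sz (l ++ l') + 1 = sz l + sz l' := by
  induction l with
  | nil => simp; omega
  | cons b l ih => simp; omega

@[simp] lemma sz_reverse (l : List α) : sz l.reverse = sz l := by
  induction l with
  | nil => rfl
  | cons b l ih => have := sz_append l.reverse [b]; simp at this ⊢; omega

lemma length_lt_sz (l : List α) : l.length < sz l := by
  induction l with
  | nil => simp
  | cons b l ih => simp; omega

lemma sz_mem {l : List α} {x : α} (h : x ∈ l) : sz x < sz l := by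
  induction l with
  | nil => simp at h
  | cons b l ih =>
    rcases List.mem_cons.mp h with rfl | h
    · simp only [sz_cons]; omega
    · have := ih h; simp only [sz_cons]; omega

lemma sz_tail (l : List α) : sz l.tail ≤ sz l := by
  cases l <;> simp; omega

lemma sz_list_le {l : List α} {B : ℕ} (h : ∀ x ∈ l, sz x ≤ B) : sz l ≤ l.length * (B + 1) + 1 := by
  induction l with
  | nil => simp
  | cons b l ih =>
    have h1 := h b (by simp)
    have h2 := ih fun x hx => h x (by simp [hx])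
    simp only [sz_cons, List.length_cons]
    nlinarith

/-- Binary length plus one. -/
def lg (n : ℕ) : ℕ := n.size + 1

/-- The time bounds. -/
def bd (e C n : ℕ) : ℕ := 2 ^ (C * lg n ^ (e + 1))

lemma one_le_lg_pow (n k : ℕ) : 1 ≤ lg n ^ k := Nat.one_le_pow _ _ (Nat.succ_pos _)

lemma bd_mono {C C' : ℕ} (h : C ≤ C') (n : ℕ) : bd e C n ≤ bd e C' n :=
  Nat.pow_le_pow_right (by norm_num) (Nat.mul_le_mul_right _ h)

lemma bd_mono_right (C : ℕ) {m n : ℕ} (h : m ≤ n) : bd e C m ≤ bd e C n :=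
  Nat.pow_le_pow_right (by norm_num) (Nat.mul_le_mul_left _
    (Nat.pow_le_pow_left (Nat.succ_le_succ (Nat.size_le_size h)) _))

lemma bd_up {e e' : ℕ} (h : e ≤ e') (C n : ℕ) : bd e C n ≤ bd e' C n :=
  Nat.pow_le_pow_right (by norm_num) (Nat.mul_le_mul_left _
    (Nat.pow_le_pow_right (Nat.succ_pos _) (by omega)))

lemma bd_mul (C C' n : ℕ) : bd e C n * bd e C' n = bd e (C + C') n := by
  simp [bd, ← pow_add, add_mul]

lemma le_bd_const (c n : ℕ) : c ≤ bd e c n :=
  (Nat.lt_two_pow_self).le.trans (Nat.pow_le_pow_right (by norm_num)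
    (Nat.le_mul_of_pos_right _ (one_le_lg_pow n _)))

lemma le_bd_self (n : ℕ) : n ≤ bd e 1 n := by
  refine (Nat.lt_size_self n).le.trans ((Nat.pow_le_pow_right (by norm_num) ?_).trans
    (bd_up (Nat.zero_le e) 1 n))
  simp [lg]

lemma bd_add (C C' n : ℕ) : bd e C n + bd e C' n ≤ bd e (C + C' + 2) n := by
  have h1 := bd_mono (e := e) (Nat.le_add_right C C') n
  have h2 := bd_mono (e := e) (Nat.le_add_left C' C) n
  have h3 := le_bd_const (e := e) 2 n
  rw [← bd_mul (C + C') 2]
  nlinarith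

lemma lg_le_of_le_bd {C m n : ℕ} (h : m ≤ bd 0 C n) : lg m ≤ (C + 2) * lg n := by
  have h1 := Nat.size_le_size h
  simp only [bd, Nat.size_pow, zero_add, pow_one] at h1
  have h2 : 1 ≤ lg n := Nat.succ_pos _
  simp only [lg] at *
  nlinarith

lemma bd_comp {C m n : ℕ} (C' : ℕ) (h : m ≤ bd 0 C n) :
    bd e C' m ≤ bd e (C' * (C + 2) ^ (e + 1)) n := by
  refine Nat.pow_le_pow_right (by norm_num) ?_
  rw [mul_assoc, ← mul_pow]
  exact Nat.mul_le_mul_left _ (Nat.pow_le_pow_left (lg_le_of_le_bd h) _)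

/-- A quantity bounded in terms of the size of the input. -/
def Bd (e : ℕ) (t : α → ℕ) : Prop := ∃ C, ∀ a, t a ≤ bd e C (sz a)

lemma Bd.of_le {t t' : α → ℕ} (h : Bd e t) (h' : ∀ a, t' a ≤ t a) : Bd e t' :=
  let ⟨C, hC⟩ := h; ⟨C, fun a => (h' a).trans (hC a)⟩

lemma Bd.const (c : ℕ) : Bd e fun _ : α => c := ⟨c, fun _ => le_bd_const _ _⟩

lemma Bd.self : Bd e fun a : α => sz a := ⟨1, fun _ => le_bd_self _⟩

lemma Bd.add {t t' : α → ℕ} (h : Bd e t) (h' : Bd e t') : Bd e fun a => t a + t' a :=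
  let ⟨C, hC⟩ := h; let ⟨C', hC'⟩ := h'
  ⟨C + C' + 2, fun a => (Nat.add_le_add (hC a) (hC' a)).trans (bd_add _ _ _)⟩

lemma Bd.mul {t t' : α → ℕ} (h : Bd e t) (h' : Bd e t') : Bd e fun a => t a * t' a :=
  let ⟨C, hC⟩ := h; let ⟨C', hC'⟩ := h'
  ⟨C + C', fun a => (Nat.mul_le_mul (hC a) (hC' a)).trans (bd_mul _ _ _).le⟩

lemma Bd.up {t : α → ℕ} (h : Bd 0 t) : Bd e t :=
  let ⟨C, hC⟩ := h; ⟨C, fun a => (hC a).trans (bd_up (Nat.zero_le _) _ _)⟩

lemma Bd.up' {e e' : ℕ} {t : α → ℕ} (h : Bd e t) (he : e ≤ e') : Bd e' t :=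
  let ⟨C, hC⟩ := h; ⟨C, fun a => (hC a).trans (bd_up he _ _)⟩

lemma Bd.bound {t : σ → ℕ} (ht : Bd e t) {B : α → ℕ} (hB : Bd 0 B) :
    ∃ T : α → ℕ, Bd e T ∧ ∀ a s, sz s ≤ B a → t s ≤ T a := by
  obtain ⟨C', h'⟩ := ht
  obtain ⟨C, h⟩ := hB
  exact ⟨fun a => bd e (C' * (C + 2) ^ (e + 1)) (sz a), ⟨_, fun _ => le_rfl⟩,
    fun a s hs => (h' s).trans (bd_comp C' (hs.trans (h a)))⟩

lemma Bd.comp {t : σ → ℕ} (ht : Bd e t) {g : α → σ} (hg : Bd 0 fun a => sz (g a)) :
    Bd e fun a => t (g a) :=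
  let ⟨_, h1, h2⟩ := ht.bound hg; h1.of_le fun a => h2 a _ le_rfl

/-- Computable within the time class `e`, with output of polynomial size. -/
@[fun_prop]
def CT (e : ℕ) (f : α → β) : Prop :=
  ∃ (p : Prog) (t : α → ℕ), (∀ a, Comp p (enc a) (enc (f a)) (t a)) ∧ Bd e t ∧
    Bd 0 fun a => sz (f a)

lemma CT.size {f : α → β} (h : CT e f) : Bd 0 fun a => sz (f a) :=
  let ⟨_, _, _, _, h⟩ := h; h

lemma CT.up {f : α → β} (h : CT 0 f) : CT e f :=
  let ⟨p, t, h1, h2, h3⟩ := h; ⟨p, t, h1, h2.up, h3⟩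

lemma CT.of_eq {f g : α → β} (h : CT e f) (h' : ∀ a, f a = g a) : CT e g :=
  (funext h' : f = g) ▸ h

lemma CT.of_enc_eq {f : α → β} {g : α → γ} (h : CT e f) (h' : ∀ a, enc (f a) = enc (g a)) :
    CT e g :=
  let ⟨p, t, h1, h2, h3⟩ := h
  ⟨p, t, fun a => h' a ▸ h1 a, h2, h3.of_le fun a => by simp [sz, h' a]⟩

@[fun_prop]
theorem CT.id : CT e fun a : α => a :=
  ⟨.skip, fun _ => 0, fun _ => Comp.skip _, Bd.const 0, Bd.self⟩

@[fun_prop]
theorem CT.comp {f : β → γ} {g : α → β} (hf : CT e f) (hg : CT e g) : CT e fun a => f (g a) :=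
  let ⟨p, t, h1, h2, h3⟩ := hf
  let ⟨q, u, k1, k2, k3⟩ := hg
  ⟨.seq q p, fun a => u a + t (g a), fun a => (k1 a).seq (h1 (g a)), k2.add (h2.comp k3),
    h3.comp k3⟩

@[fun_prop]
theorem CT.mk {f : α → β} {g : α → γ} (hf : CT e f) (hg : CT e g) : CT e fun a => (f a, g a) :=
  let ⟨p, t, h1, h2, h3⟩ := hf
  let ⟨q, u, k1, k2, k3⟩ := hg
  ⟨pairP p q, fun a => t a + u a + 3 * sz a + 3, fun a => (h1 a).pairP (k1 a),
    ((h2.add k2).add ((Bd.const 3).mul Bd.self)).add (Bd.const 3),
    ((h3.add k3).add (Bd.const 1)).of_le fun a => by simp⟩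

theorem CT.constTr (x : Tr) : CT e fun _ : α => x := by
  induction x with
  | nil => exact ⟨nilP, fun a => sz a + 1, fun a => Comp.nilP _, Bd.self.add (Bd.const 1),
      Bd.const _⟩
  | cons x y ihx ihy => exact (ihx.mk ihy).of_enc_eq fun _ => rfl

@[fun_prop]
theorem CT.const (b : β) : CT e fun _ : α => b := (CT.constTr (enc b)).of_enc_eq fun _ => rfl

lemma Tr.size_car (x : Tr) : x.car.size ≤ x.size := by cases x <;> simp [Tr.car]; omega
lemma Tr.size_cdr (x : Tr) : x.cdr.size ≤ x.size := by cases x <;> simp [Tr.cdr]; omega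

theorem CT.car : CT e fun a : α => (enc a).car :=
  ⟨carP, fun a => 2 * sz a + 3, fun _ => Comp.carP _, ((Bd.const 2).mul Bd.self).add (Bd.const 3),
    Bd.self.of_le fun _ => Tr.size_car _⟩

theorem CT.cdr : CT e fun a : α => (enc a).cdr :=
  ⟨cdrP, fun a => sz a + 1, fun _ => Comp.cdrP _, Bd.self.add (Bd.const 1),
    Bd.self.of_le fun _ => Tr.size_cdr _⟩

@[fun_prop]
theorem CT.fst {f : α → β × γ} (hf : CT e f) : CT e fun a => (f a).1 :=
  (CT.car.comp hf).of_enc_eq fun _ => rfl

@[fun_prop]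
theorem CT.snd {f : α → β × γ} (hf : CT e f) : CT e fun a => (f a).2 :=
  (CT.cdr.comp hf).of_enc_eq fun _ => rfl

open Classical in
theorem CT.caseTr {c : α → Tr} {f g : α → β} (hc : CT e c) (hf : CT e f) (hg : CT e g) :
    CT e fun a => if c a = .nil then f a else g a := by
  obtain ⟨p, t, h1, h2, h3⟩ := hf
  obtain ⟨q, u, k1, k2, k3⟩ := hg
  obtain ⟨r, v, l1, l2, l3⟩ := hc.mk CT.id
  refine ⟨.seq r (caseP p q), fun a => v a + (t a + u a + sz (c a, a)), fun a => (l1 a).seq ?_,
    l2.add ((h2.add k2).add l3.up), (h3.add k3).of_le fun a => ?_⟩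
  · rw [enc_pair, enc_tr]
    dsimp only
    cases h : c a with
    | nil =>
      rw [if_pos rfl]
      exact (h1 a).caseP_nil.mono (by omega)
    | cons x y =>
      rw [if_neg (by simp)]
      refine (k1 a).caseP_cons.mono ?_
      simp only [sz_pair]
      have : sz (Tr.cons x y) = (Tr.cons x y).size := rfl
      omega
  · dsimp only
    split_ifs <;> omega

@[fun_prop]
theorem CT.cond {c : α → Bool} {f g : α → β} (hc : CT e c) (hf : CT e f) (hg : CT e g) :
    CT e fun a => bif c a then f a else g a :=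
  ((CT.car.comp hc).caseTr hg hf).of_eq fun a => by
    cases c a <;> simp [enc, Tr.car]

@[fun_prop]
theorem CT.not {c : α → Bool} (hc : CT e c) : CT e fun a => !c a :=
  (hc.cond (CT.const false) (CT.const true)).of_eq fun a => by cases c a <;> rfl

@[fun_prop]
theorem CT.and {c d : α → Bool} (hc : CT e c) (hd : CT e d) : CT e fun a => c a && d a :=
  (hc.cond hd (CT.const false)).of_eq fun a => by cases c a <;> rfl

@[fun_prop]
theorem CT.or {c d : α → Bool} (hc : CT e c) (hd : CT e d) : CT e fun a => c a || d a :=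
  (hc.cond (CT.const true) hd).of_eq fun a => by cases c a <;> rfl

@[fun_prop]
theorem CT.cons {f : α → β} {g : α → List β} (hf : CT e f) (hg : CT e g) :
    CT e fun a => f a :: g a :=
  (hf.mk hg).of_enc_eq fun _ => rfl

@[fun_prop]
theorem CT.tail {g : α → List β} (hg : CT e g) : CT e fun a => (g a).tail :=
  (CT.cdr.comp hg).of_enc_eq fun a => by cases g a <;> rfl

@[fun_prop]
theorem CT.isEmpty {g : α → List β} (hg : CT e g) : CT e fun a => (g a).isEmpty :=
  (((CT.id.of_enc_eq (g := fun l : List β => enc l) fun _ => rfl).comp hg).caseTr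
    (CT.const true) (CT.const false)).of_eq fun a => by
      cases g a <;> simp [enc_nil, enc_cons]

@[fun_prop]
theorem CT.headD {g : α → List β} {d : α → β} (hg : CT e g) (hd : CT e d) :
    CT e fun a => (g a).headD (d a) :=
  (hg.isEmpty.cond (hd.of_enc_eq (g := fun a => enc (d a)) fun _ => rfl)
    (CT.car.comp hg)).of_enc_eq fun a => by cases g a <;> rfl

/-- Bounded while loops. -/
theorem CT.iterate {step : σ → σ} {go : σ → Bool} {init : α → σ} {N B : α → ℕ}
    (hs : CT e step) (hg : CT e go) (hi : CT e init) (hN : Bd e N) (hB : Bd 0 B)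
    (h1 : ∀ a k, k < N a → go (step^[k] (init a)) = true)
    (h2 : ∀ a, go (step^[N a] (init a)) = false)
    (h3 : ∀ a k, k ≤ N a → sz (step^[k] (init a)) ≤ B a) :
    CT e fun a => step^[N a] (init a) := by
  have hf : CT e fun s => ((enc (go s)).car, s) := (CT.car.comp hg).mk CT.id
  obtain ⟨p, t, k1, k2, -⟩ := hf.comp hs
  obtain ⟨q, u, l1, l2, -⟩ := hf.comp hi
  obtain ⟨T, hT, hT'⟩ := k2.bound hB
  refine ⟨.seq q (loopP p), fun a => u a + (N a * (2 * (T a + 3) + 2) + 1), fun a => (l1 a).seq ?_,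
    l2.add ((hN.mul (((Bd.const 2).mul (hT.add (Bd.const 3))).add (Bd.const 2))).add (Bd.const 1)),
    hB.of_le fun a => h3 a _ le_rfl⟩
  refine Comp.loopP (t := fun k => (enc (go (step^[k] (init a)))).car)
    (y := fun k => enc (step^[k] (init a))) (fun k hk => ⟨?_, ?_, ?_⟩) ?_
  · simp [h1 a k hk, enc, Tr.car]
  · simp [h1 a k hk, enc, Tr.car]
  · simp only [iterate_succ_apply']
    exact (k1 _).mono ((hT' a _ (h3 a k hk.le)).trans (by omega))
  · simp [h2 a, enc, Tr.car]

/-- Folds whose states stay small, by an invariant. -/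
theorem CT.foldl_inv {g : α → σ → β → σ} {init : α → σ} {l : α → List β} {B : α → ℕ}
    (hg : CT e fun p : α × σ × β => g p.1 p.2.1 p.2.2) (hi : CT e init) (hl : CT e l)
    (hB : Bd 0 B) (I : α → σ → List β → Prop) (h0 : ∀ a, I a (init a) (l a))
    (h1 : ∀ a s x r, I a s (x :: r) → I a (g a s x) r) (h2 : ∀ a s r, I a s r → sz s ≤ B a) :
    CT e fun a => (l a).foldl (g a) (init a) := by
  by_cases hβ : Nonempty β
  swap
  · refine hi.of_eq fun a => ?_
    cases h : l a with
    | nil => rfl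
    | cons x _ => exact absurd ⟨x⟩ hβ
  obtain ⟨d⟩ := hβ
  let step : α × σ × List β → α × σ × List β := fun p =>
    (p.1, g p.1 p.2.1 (p.2.2.headD d), p.2.2.tail)
  have key : ∀ a k, k ≤ (l a).length → step^[k] (a, init a, l a) =
      (a, ((l a).take k).foldl (g a) (init a), (l a).drop k) ∧
      I a (((l a).take k).foldl (g a) (init a)) ((l a).drop k) := by
    intro a k
    induction k with
    | zero => intro _; simpa using h0 a
    | succ k ih =>
      intro hk
      obtain ⟨e1, e2⟩ := ih (by omega)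
      have hk' : k < (l a).length := hk
      rw [List.drop_eq_getElem_cons hk'] at e1 e2
      rw [iterate_succ_apply', e1, List.take_succ_eq_append_getElem hk', List.foldl_append]
      exact ⟨rfl, h1 _ _ _ _ e2⟩
  have hstep : CT e step := by
    have h4 : CT e fun p : α × σ × List β => g p.1 p.2.1 (p.2.2.headD d) :=
      hg.comp (g := fun p : α × σ × List β => (p.1, p.2.1, p.2.2.headD d)) (by fun_prop)
    fun_prop
  have h5 := CT.iterate (step := step) (go := fun p => !p.2.2.isEmpty)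
    (init := fun a => (a, init a, l a)) (N := fun a => (l a).length)
    (B := fun a => sz a + B a + sz (l a) + 2) hstep (by fun_prop) (by fun_prop)
    (hl.size.up.of_le fun a => (length_lt_sz _).le)
    (((Bd.self.add hB).add hl.size).add (Bd.const 2))
    (fun a k hk => by simp [(key a k hk.le).1, hk])
    (fun a => by simp [(key a _ le_rfl).1])
    (fun a k hk => by
      have h6 := h2 _ _ _ (key a k hk).2
      have h7 := sz_append ((l a).take k) ((l a).drop k)
      have h8 := sz_pos ((l a).take k)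
      rw [List.take_append_drop] at h7
      simp only [(key a k hk).1, sz_pair]
      omega)
  exact h5.snd.fst.of_eq fun a => by simp [(key a _ le_rfl).1]

/-- Folds whose states grow additively. -/
theorem CT.foldl {g : α → σ → β → σ} {init : α → σ} {l : α → List β} {G : α × β → ℕ}
    (hg : CT e fun p : α × σ × β => g p.1 p.2.1 p.2.2) (hi : CT e init) (hl : CT e l)
    (hG : Bd 0 G) (h : ∀ a s x, sz (g a s x) ≤ sz s + G (a, x)) :
    CT e fun a => (l a).foldl (g a) (init a) := by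
  obtain ⟨T, hT, hT'⟩ := hG.bound ((Bd.self.add hl.size).add (Bd.const 1))
  refine CT.foldl_inv hg hi hl (hi.size.add (hl.size.mul hT))
    (fun a s r => sz r ≤ sz (l a) ∧ sz s + sz r * T a ≤ sz (init a) + sz (l a) * T a)
    (fun a => ⟨le_rfl, le_rfl⟩) (fun a s x r ⟨h1, h2⟩ => ?_) (fun a s r h => by omega)
  simp only [sz_cons] at h1 h2
  have h3 := hT' a (a, x) (by simp; omega)
  have h4 := h a s x
  refine ⟨by omega, ?_⟩
  nlinarith [Nat.zero_le (sz x * T a)]

end Vale.Agent.Lib.TM
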