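import Mathlib

/-!
Structured stack programs over four stacks of bits, with a step bound, compiled to the stack
machines `Turing.FinTM2` of Mathlib (after helper17's `StackProg`).
-/

open Function Turing

namespace Vale.Agent.Lib.TM

/-- Structured stack programs. -/
inductive Prog
  | skip
  | push (k : Fin 4) (b : Bool)
  | pop (k : Fin 4)
  | seq (p q : Prog)
  | ite (k : Fin 4) (p q : Prog)
  | loop (k : Fin 4) (p : Prog)

/-- Contents of the stacks. -/
abbrev St := Fin 4 → List Bool

/-- Big-step semantics with an upper bound on the visits of loop heads. -/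
inductive Ex : Prog → St → St → ℕ → Prop
  | skip (S : St) : Ex .skip S S 0
  | push (k : Fin 4) (b : Bool) (S : St) : Ex (.push k b) S (update S k (b :: S k)) 0
  | pop (k : Fin 4) (S : St) : Ex (.pop k) S (update S k (S k).tail) 0
  | seq {p q : Prog} {S S' S'' : St} {c c' : ℕ} :
      Ex p S S' c → Ex q S' S'' c' → Ex (.seq p q) S S'' (c + c')
  | iteT {k : Fin 4} {p q : Prog} {S S' : St} {c : ℕ} : (S k).head? = some true →
      Ex p S S' c → Ex (.ite k p q) S S' c
  | iteF {k : Fin 4} {p q : Prog} {S S' : St} {c : ℕ} : (S k).head? ≠ some true →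
      Ex q S S' c → Ex (.ite k p q) S S' c
  | exit {k : Fin 4} {p : Prog} {S : St} : (S k).head? ≠ some true → Ex (.loop k p) S S 1
  | iter {k : Fin 4} {p : Prog} {S S' S'' : St} {c c' : ℕ} : (S k).head? = some true →
      Ex p (update S k (S k).tail) S' c → Ex (.loop k p) S' S'' c' →
      Ex (.loop k p) S S'' (c + c' + 1)
  | mono {p : Prog} {S S' : St} {c c' : ℕ} : Ex p S S' c → c ≤ c' → Ex p S S' c'

/-- Labels: one for each loop. -/
def Prog.Lab : Prog → Type
  | .skip => Empty
  | .push _ _ => Empty
  | .pop _ => Empty
  | .seq p q => p.Lab ⊕ q.Lab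
  | .ite _ p q => p.Lab ⊕ q.Lab
  | .loop _ p => Option p.Lab

/-- There are finitely many labels. -/
@[reducible] def Prog.labFintype : (p : Prog) → Fintype p.Lab
  | .skip => inferInstanceAs (Fintype Empty)
  | .push _ _ => inferInstanceAs (Fintype Empty)
  | .pop _ => inferInstanceAs (Fintype Empty)
  | .seq p q =>
    letI := p.labFintype
    letI := q.labFintype
    inferInstanceAs (Fintype (p.Lab ⊕ q.Lab))
  | .ite _ p q =>
    letI := p.labFintype
    letI := q.labFintype
    inferInstanceAs (Fintype (p.Lab ⊕ q.Lab))
  | .loop _ p =>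
    letI := p.labFintype
    inferInstanceAs (Fintype (Option p.Lab))

/-- Statements of the target machine. -/
abbrev Stm (Λ : Type) := TM2.Stmt (fun _ : Fin 4 => Bool) Λ Bool

/-- Entry code of a program followed by a continuation. -/
def comp {Λ : Type} : (p : Prog) → (p.Lab → Λ) → Stm Λ → Stm Λ
  | .skip, _, k => k
  | .push i b, _, k => .push i (fun _ => b) k
  | .pop i, _, k => .pop i (fun v _ => v) k
  | .seq p q, emb, k => comp p (fun l => emb (.inl l)) (comp q (fun l => emb (.inr l)) k)
  | .ite i p q, emb, k => .peek i (fun _ o => decide (o = some true)) (.branch id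
      (.load (fun _ => false) (comp p (fun l => emb (.inl l)) k))
      (comp q (fun l => emb (.inr l)) k))
  | .loop _ _, emb, _ => .goto fun _ => emb none

/-- Code at the labels of a program. -/
def tbl {Λ : Type} : (p : Prog) → (p.Lab → Λ) → Stm Λ → p.Lab → Stm Λ
  | .skip, _, _, l => Empty.elim l
  | .push _ _, _, _, l => Empty.elim l
  | .pop _, _, _, l => Empty.elim l
  | .seq p q, emb, k, .inl l =>
      tbl p (fun l => emb (.inl l)) (comp q (fun l => emb (.inr l)) k) l
  | .seq _ q, emb, k, .inr l => tbl q (fun l => emb (.inr l)) k l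
  | .ite _ p _, emb, k, .inl l => tbl p (fun l => emb (.inl l)) k l
  | .ite _ _ q, emb, k, .inr l => tbl q (fun l => emb (.inr l)) k l
  | .loop i p, emb, k, none =>
      .peek i (fun _ o => decide (o = some true)) (.branch id
        (.pop i (fun _ _ => false)
          (comp p (fun l => emb (some l)) (.goto fun _ => emb none))) k)
  | .loop _ p, emb, _, some l => tbl p (fun l => emb (some l)) (.goto fun _ => emb none) l

theorem sim {Λ : Type} (M : Λ → Stm Λ) {p : Prog} {S S' : St} {c : ℕ}
    (h : Ex p S S' c) : ∀ (emb : p.Lab → Λ) (k : Stm Λ),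
      (∀ l, M (emb l) = tbl p emb k l) → ∃ n ≤ c,
      (flip bind (TM2.step M))^[n] (some (TM2.stepAux (comp p emb k) false S)) =
        some (TM2.stepAux k false S') := by
  induction h with
  | skip S => intro emb k _; exact ⟨0, le_rfl, rfl⟩
  | push i b S => intro emb k _; exact ⟨0, le_rfl, rfl⟩
  | pop i S => intro emb k _; exact ⟨0, le_rfl, rfl⟩
  | @seq p q S S' S'' c c' _ _ ihp ihq =>
    intro emb k hM
    obtain ⟨n, hn, h1⟩ := ihp _ _ fun l => hM (.inl l)
    obtain ⟨m, hm, h2⟩ := ihq _ _ fun l => hM (.inr l)
    refine ⟨m + n, by omega, ?_⟩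
    rw [iterate_add_apply]
    simp only [comp]
    rw [h1, h2]
  | @iteT i p q S S' c hS _ ih =>
    intro emb k hM
    obtain ⟨n, hn, h1⟩ := ih _ _ fun l => hM (.inl l)
    refine ⟨n, hn, ?_⟩
    simp only [comp, TM2.stepAux, hS, decide_true, id, cond_true]
    exact h1
  | @iteF i p q S S' c hS _ ih =>
    intro emb k hM
    obtain ⟨n, hn, h1⟩ := ih _ _ fun l => hM (.inr l)
    refine ⟨n, hn, ?_⟩
    simp only [comp, TM2.stepAux, hS, decide_false, id, cond_false]
    exact h1
  | @exit i p S hS =>
    intro emb k hM
    have h1 := hM none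
    refine ⟨1, le_rfl, ?_⟩
    simp only [comp, TM2.stepAux, iterate_one, flip, Option.bind_eq_bind, Option.bind_some,
      TM2.step]
    rw [h1]
    simp only [tbl, TM2.stepAux, hS, decide_false, id, cond_false]
  | @iter i p S S' S'' c c' hS _ _ ihp ihl =>
    intro emb k hM
    have h1 := hM none
    obtain ⟨n, hn, h2⟩ := ihp (fun l => emb (some l)) (.goto fun _ => emb none) fun l => hM (some l)
    obtain ⟨m, hm, h3⟩ := ihl emb k hM
    refine ⟨m + n + 1, by omega, ?_⟩
    rw [iterate_succ_apply, iterate_add_apply]
    have h4 : flip bind (TM2.step M) (some (TM2.stepAux (comp (.loop i p) emb k) false S))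
        = some (TM2.stepAux (comp p (fun l => emb (some l)) (.goto fun _ => emb none)) false
          (update S i (S i).tail)) := by
      simp only [comp, TM2.stepAux, flip, Option.bind_eq_bind, Option.bind_some, TM2.step]
      rw [h1]
      simp only [tbl, TM2.stepAux, hS, decide_true, id, cond_true]
    rw [h4, h2]
    exact h3
  | mono _ hc ih =>
    intro emb k hM
    obtain ⟨n, hn, h1⟩ := ih emb k hM
    exact ⟨n, hn.trans hc, h1⟩

/-- The machine of a program; stack `0` is both the input and the output stack. -/
def machine (P : Prog) : FinTM2 where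
  K := Fin 4
  k₀ := 0
  k₁ := 0
  Γ := fun _ => Bool
  Λ := Option P.Lab
  main := none
  ΛFin := letI := P.labFintype; inferInstance
  σ := Bool
  initialState := false
  m := fun l => match l with
    | none => comp P some .halt
    | some l => tbl P some .halt l

/-- The four stacks. -/
def st (m a t c : List Bool) : St := ![m, a, t, c]

@[simp] lemma st0 (m a t c : List Bool) : st m a t c 0 = m := rfl
@[simp] lemma st1 (m a t c : List Bool) : st m a t c 1 = a := rfl
@[simp] lemma st2 (m a t c : List Bool) : st m a t c 2 = t := rfl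
@[simp] lemma st3 (m a t c : List Bool) : st m a t c 3 = c := rfl
@[simp] lemma up0 (m a t c x : List Bool) : update (st m a t c) 0 x = st x a t c := by
  funext i; fin_cases i <;> simp [st]
@[simp] lemma up1 (m a t c x : List Bool) : update (st m a t c) 1 x = st m x t c := by
  funext i; fin_cases i <;> simp [st]
@[simp] lemma up2 (m a t c x : List Bool) : update (st m a t c) 2 x = st m a x c := by
  funext i; fin_cases i <;> simp [st]
@[simp] lemma up3 (m a t c x : List Bool) : update (st m a t c) 3 x = st m a t x := by
  funext i; fin_cases i <;> simp [st]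

/-- A run of the program is a run of the machine. -/
theorem machine_outputs (P : Prog) (inp out : List Bool) (c : ℕ)
    (h : Ex P (st inp [] [] []) (st out [] [] []) c) :
    Nonempty (TM2OutputsInTime (machine P) inp (some out) (c + 1)) := by
  obtain ⟨n, hn, h1⟩ := sim (machine P).m h some .halt fun l => rfl
  refine ⟨{ steps := n + 1, steps_le_m := by omega, evals_in_steps := ?_ }⟩
  have h2 : (initList (machine P) inp).stk = st inp [] [] [] := by
    funext (k : Fin 4)
    fin_cases k <;> rfl
  have h3 : (haltList (machine P) out).stk = st out [] [] [] := by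
    funext (k : Fin 4)
    fin_cases k <;> rfl
  rw [iterate_succ_apply]
  have h4 : flip bind (machine P).step (some (initList (machine P) inp)) =
      some (TM2.stepAux (comp P some .halt) false (st inp [] [] [])) := by
    rw [← h2]; rfl
  rw [h4]
  refine h1.trans ?_
  rw [← h3]; rfl

end Vale.Agent.Lib.TM
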