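import Vale.Agent.Lib.CT.Arith

/-!
Recursive procedures of logarithmic depth run in time `2 ^ O(log ^ 2 n)`; export to the stack
machines of Mathlib.
-/

open Function Turing

namespace Vale.Agent.Lib.TM

variable {α β Q S I R : Type} [Enc α] [Enc β] [Enc Q] [Enc S] [Enc I] [Enc R] {e : ℕ}

lemma Bd.pow_lg {t d : α → ℕ} (ht : Bd e t) {C : ℕ} (hd : ∀ a, d a ≤ C * lg (sz a)) :
    Bd (e + 1) fun a => t a ^ d a := by
  obtain ⟨C', h⟩ := ht
  refine ⟨C' * C, fun a => (Nat.pow_le_pow_left (h a) _).trans ?_⟩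
  rw [bd, bd, ← pow_mul]
  refine Nat.pow_le_pow_right (by norm_num) ((Nat.mul_le_mul_left _ (hd a)).trans (le_of_eq ?_))
  ring

lemma Bd.const_pow_lg {d : α → ℕ} (c : ℕ) {C : ℕ} (hd : ∀ a, d a ≤ C * lg (sz a)) :
    Bd 0 fun a => c ^ d a := by
  refine ⟨c * C, fun a => (Nat.pow_le_pow_left (Nat.lt_two_pow_self (n := c)).le _).trans ?_⟩
  rw [bd, ← pow_mul]
  refine Nat.pow_le_pow_right (by norm_num) ((Nat.mul_le_mul_left _ (hd a)).trans (le_of_eq ?_))
  ring

/-- Runs of a step function through states with a property. -/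
inductive Run {σ : Type} (step : σ → σ) (P : σ → Prop) : σ → σ → ℕ → Prop
  | refl (c : σ) : Run step P c c 0
  | cons {c c' : σ} {n : ℕ} : P c → Run step P (step c) c' n → Run step P c c' (n + 1)

lemma Run.trans {σ : Type} {step : σ → σ} {P : σ → Prop} {a b c : σ} {m n : ℕ}
    (h : Run step P a b m) (h' : Run step P b c n) : Run step P a c (n + m) := by
  induction h with
  | refl => exact h'
  | cons hp _ ih => exact Run.cons hp (ih h')

lemma Run.spec {σ : Type} {step : σ → σ} {P : σ → Prop} {a b : σ} {n : ℕ}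
    (h : Run step P a b n) : step^[n] a = b ∧ ∀ k < n, P (step^[k] a) := by
  induction h with
  | refl => simp
  | cons hp _ ih =>
    refine ⟨ih.1, fun k hk => ?_⟩
    cases k with
    | zero => exact hp
    | succ k => exact ih.2 k (by omega)

/-- Data of a recursive procedure. -/
structure Proc (Q S I R : Type) where
  /-- result at depth zero -/
  base : Q → R
  /-- list of instructions, one recursive call each -/
  sched : Q → List I
  /-- initial local state -/
  init : Q → S
  /-- argument of a recursive call -/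
  qry : Q → S → I → Q
  /-- new local state after a call -/
  upd : Q → S → I → R → S
  /-- result -/
  out : Q → S → R

/-- The function computed with a given recursion depth. -/
def Proc.run {Q S I R : Type} (P : Proc Q S I R) : ℕ → Q → R
  | 0, q => P.base q
  | d + 1, q =>
    P.out q ((P.sched q).foldl (fun s i => P.upd q s i (P.run d (P.qry q s i))) (P.init q))

/-- Configurations: a stack of frames and a returned value. -/
abbrev Cfg (Q S I R : Type) := List (ℕ × Q × S × List I) × List R

/-- Entering a call. -/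
def Proc.call {Q S I R : Type} (P : Proc Q S I R) (d : ℕ) (q : Q)
    (fs : List (ℕ × Q × S × List I)) : Cfg Q S I R :=
  bif Nat.blt 0 d then ((d - 1, q, P.init q, P.sched q) :: fs, []) else (fs, [P.base q])

/-- One step on the top frame. -/
def Proc.step1 {Q S I R : Type} [Inhabited I] [Inhabited R] (P : Proc Q S I R)
    (f : ℕ × Q × S × List I) (fs : List (ℕ × Q × S × List I)) (ret : List R) : Cfg Q S I R :=
  bif ret.isEmpty then
    bif f.2.2.2.isEmpty then (fs, [P.out f.2.1 f.2.2.1])
    else P.call f.1 (P.qry f.2.1 f.2.2.1 (f.2.2.2.headD default)) (f :: fs)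
  else ((f.1, f.2.1, P.upd f.2.1 f.2.2.1 (f.2.2.2.headD default) (ret.headD default),
    f.2.2.2.tail) :: fs, [])

/-- One step. -/
def Proc.step {Q S I R : Type} [Inhabited Q] [Inhabited S] [Inhabited I] [Inhabited R]
    (P : Proc Q S I R) (c : Cfg Q S I R) : Cfg Q S I R :=
  P.step1 (c.1.headD default) c.1.tail c.2

variable [Inhabited Q] [Inhabited S] [Inhabited I] [Inhabited R]

theorem Proc.run_call (P : Proc Q S I R) {C Z A B D X : ℕ} (hC : 1 ≤ C)
    (hq : ∀ q s i, sz (P.qry q s i) ≤ C * sz q)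
    (hu : ∀ q s i r, sz (P.upd q s i r) ≤ sz s + C * sz q)
    (hP : ∀ q, sz q ≤ Z → sz (P.init q) ≤ A ∧ sz (P.sched q) ≤ A ∧ sz (P.base q) ≤ B ∧
      ∀ s, sz s ≤ A + A * (C * Z) → sz (P.out q s) ≤ B) :
    ∀ d ≤ D, ∀ q fs, C ^ d * sz q ≤ Z →
      sz fs + d * (sz D + Z + (A + A * (C * Z)) + A + 4) ≤ X →
      sz (P.run d q) ≤ B ∧ ∃ n ≤ (3 * A + 1) ^ d,
        Run P.step (fun c => c.1 ≠ [] ∧ sz c.1 ≤ X ∧ sz c.2 ≤ B + 2) (P.call d q fs)
          (fs, [P.run d q]) n := by
  intro d
  induction d with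
  | zero =>
    intro _ q fs h1 _
    exact ⟨(hP q (by simpa using h1)).2.2.1, 0, by simp, Run.refl _⟩
  | succ d ih =>
    intro hd q fs h1 h2
    have hCd : 1 ≤ C ^ d := Nat.one_le_pow _ _ hC
    have hqZ : sz q ≤ Z := le_trans (Nat.le_mul_of_pos_left _ (Nat.one_le_pow _ _ hC)) h1
    obtain ⟨p1, p2, -, p4⟩ := hP q hqZ
    have hCq : C * sz q ≤ C * Z := Nat.mul_le_mul_left _ hqZ
    have hdD : sz d ≤ sz D := sz_mono (by omega)
    have hT : 1 ≤ (3 * A + 1) ^ d := Nat.one_le_pow _ _ (by omega)
    have inner : ∀ (is : List I) (s : S), sz is ≤ A → sz s + is.length * (C * Z) ≤ A + A * (C * Z) →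
        sz (P.out q (is.foldl (fun s i => P.upd q s i (P.run d (P.qry q s i))) s)) ≤ B ∧
        ∃ n ≤ is.length * ((3 * A + 1) ^ d + 2) + 1,
        Run P.step (fun c => c.1 ≠ [] ∧ sz c.1 ≤ X ∧ sz c.2 ≤ B + 2) ((d, q, s, is) :: fs, [])
          (fs, [P.out q (is.foldl (fun s i => P.upd q s i (P.run d (P.qry q s i))) s)]) n := by
      intro is
      induction is with
      | nil =>
        intro s k1 k2
        refine ⟨p4 s (by simpa using k2), 1, by simp, Run.cons ⟨by simp, ?_, by simp⟩ (Run.refl _)⟩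
        simp only [sz_cons, sz_pair, add_mul, one_mul] at *
        omega
      | cons i is ih2 =>
        intro s k1 k2
        simp only [List.length_cons, add_mul, one_mul, sz_cons] at k1 k2
        have k3 : sz ((d, q, s, i :: is) :: fs) +
            d * (sz D + Z + (A + A * (C * Z)) + A + 4) ≤ X := by
          simp only [sz_cons, sz_pair, add_mul, one_mul] at *
          omega
        obtain ⟨r1, n1, hn1, r2⟩ := ih (by omega) (P.qry q s i) ((d, q, s, i :: is) :: fs)
          ((Nat.mul_le_mul_left _ (hq q s i)).trans (by rw [← mul_assoc, ← pow_succ]; exact h1)) k3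
        have k4 := hu q s i (P.run d (P.qry q s i))
        obtain ⟨r3, n2, hn2, r4⟩ := ih2 (P.upd q s i (P.run d (P.qry q s i))) (by omega) (by omega)
        refine ⟨r3, n2 + 1 + n1 + 1, ?_, Run.cons ⟨by simp, by simp only; omega, by simp⟩
          (r2.trans (Run.cons ⟨by simp, by simp only; omega, by simpa using r1⟩ r4))⟩
        simp only [List.length_cons, add_mul, one_mul]
        omega
    have hl := length_lt_sz (P.sched q)
    obtain ⟨r1, n, hn, r2⟩ := inner (P.sched q) (P.init q) p2
      (Nat.add_le_add p1 (Nat.mul_le_mul_right _ (by omega)))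
    refine ⟨r1, n, hn.trans ?_, r2⟩
    have : (P.sched q).length * ((3 * A + 1) ^ d + 2) ≤ A * (3 * (3 * A + 1) ^ d) :=
      Nat.mul_le_mul (by omega) (by omega)
    rw [pow_succ]
    nlinarith

/-- Recursion of logarithmic depth. -/
theorem CT.recursion (P : Proc Q S I R) {C C' : ℕ} {q : α → Q} {d : α → ℕ}
    (h1 : CT 1 P.base) (h2 : CT 1 P.sched) (h3 : CT 1 P.init)
    (h4 : CT 1 fun p : Q × S × I => P.qry p.1 p.2.1 p.2.2)
    (h5 : CT 1 fun p : Q × S × I × R => P.upd p.1 p.2.1 p.2.2.1 p.2.2.2)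
    (h6 : CT 1 fun p : Q × S => P.out p.1 p.2)
    (hq : ∀ q s i, sz (P.qry q s i) ≤ C * sz q)
    (hu : ∀ q s i r, sz (P.upd q s i r) ≤ sz s + C * sz q)
    (hq0 : CT 1 q) (hd : CT 1 d) (hd' : ∀ a, d a ≤ C' * lg (sz a)) :
    CT 1 fun a => P.run (d a) (q a) := by
  have hq' : ∀ q s i, sz (P.qry q s i) ≤ (C + 1) * sz q := fun q s i =>
    (hq q s i).trans (Nat.mul_le_mul_right _ (by omega))
  have hu' : ∀ q s i r, sz (P.upd q s i r) ≤ sz s + (C + 1) * sz q := fun q s i r =>
    (hu q s i r).trans (Nat.add_le_add_left (Nat.mul_le_mul_right _ (by omega)) _)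
  have hZ : Bd 0 fun a => (C + 1) ^ d a * sz (q a) := (Bd.const_pow_lg _ hd').mul hq0.size
  obtain ⟨A, hA, hA'⟩ := (h3.size.add h2.size).bound hZ
  obtain ⟨B₁, hB₁, hB₁'⟩ := h1.size.bound hZ
  have hS := hA.add (hA.mul ((Bd.const (C + 1)).mul hZ))
  obtain ⟨B₂, hB₂, hB₂'⟩ := h6.size.bound ((hZ.add hS).add (Bd.const 1))
  have hdb : Bd 0 d := ((Bd.const C').mul (Bd.self.add (Bd.const 1))).of_le fun a =>
    (hd' a).trans (Nat.mul_le_mul_left _ (Nat.succ_le_succ
      (Nat.size_le.mpr Nat.lt_two_pow_self)))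
  have hX := (Bd.const 1).add (hdb.mul ((((hd.size.add hZ).add hS).add hA).add (Bd.const 4)))
  have key := fun a => (P.run_call (C := C + 1) (Z := (C + 1) ^ d a * sz (q a)) (A := A a)
    (B := B₁ a + B₂ a) (D := d a) (by omega) hq' hu' (fun q' hq' => by
      have k1 := hA' a q' hq'
      have k2 := hB₁' a q' hq'
      refine ⟨by omega, by omega, by omega, fun s hs => ?_⟩
      have k3 := hB₂' a (q', s) (by simp only [sz_pair]; omega)
      simp only at k3
      omega) (d a) le_rfl (q a) [] le_rfl (le_of_eq (by rw [sz_nil])))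
  choose hr N hN hrun using key
  have hcall : CT 1 fun p : ℕ × Q × List (ℕ × Q × S × List I) => P.call p.1 p.2.1 p.2.2 := by
    unfold Proc.call
    fun_prop
  have hstep1 : CT 1 fun p : (ℕ × Q × S × List I) × List (ℕ × Q × S × List I) × List R =>
      P.step1 p.1 p.2.1 p.2.2 := by
    have k1 := h6.comp (g := fun p : (ℕ × Q × S × List I) × List (ℕ × Q × S × List I) × List R =>
      (p.1.2.1, p.1.2.2.1)) (by fun_prop)
    have k2 := h4.comp (g := fun p : (ℕ × Q × S × List I) × List (ℕ × Q × S × List I) × List R =>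
      (p.1.2.1, p.1.2.2.1, p.1.2.2.2.headD default)) (by fun_prop)
    have k3 := h5.comp (g := fun p : (ℕ × Q × S × List I) × List (ℕ × Q × S × List I) × List R =>
      (p.1.2.1, p.1.2.2.1, p.1.2.2.2.headD default, p.2.2.headD default)) (by fun_prop)
    have k4 := hcall.comp
      (g := fun p : (ℕ × Q × S × List I) × List (ℕ × Q × S × List I) × List R =>
      (p.1.1, P.qry p.1.2.1 p.1.2.2.1 (p.1.2.2.2.headD default), p.1 :: p.2.1))
      (CT.mk (by fun_prop) (CT.mk k2 (by fun_prop)))
    exact CT.cond (by fun_prop) (CT.cond (by fun_prop) (CT.mk (by fun_prop)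
      (k1.cons (CT.const _))) k4) (CT.mk (CT.cons (CT.mk (by fun_prop) (CT.mk (by fun_prop)
        (CT.mk k3 (by fun_prop)))) (by fun_prop)) (CT.const _))
  have hstep : CT 1 P.step := hstep1.comp
    (g := fun c : Cfg Q S I R => (c.1.headD default, c.1.tail, c.2)) (by fun_prop)
  have h := CT.iterate (go := fun c => !c.1.isEmpty) (init := fun a => P.call (d a) (q a) [])
    (N := N) hstep (by fun_prop) (hcall.comp (g := fun a => (d a, q a, [])) (by fun_prop))
    (((((Bd.const 3).mul hA).add (Bd.const 1)).pow_lg hd').of_le hN)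
    ((hX.add ((hB₁.add hB₂).add (Bd.const 2))).add (Bd.const 1))
    (fun a k hk => by simpa using ((hrun a).spec.2 k hk).1)
    (fun a => by simp [(hrun a).spec.1])
    (fun a k hk => by
      rcases hk.lt_or_eq with hk | rfl
      · obtain ⟨-, k1, k2⟩ := (hrun a).spec.2 k hk
        rw [sz_prod]
        exact Nat.add_le_add_right (Nat.add_le_add k1 k2) _
      · have := hr a
        simp only [(hrun a).spec.1, sz_pair, sz_cons, sz_nil]
        omega)
  exact (h.snd.headD (CT.const default)).of_eq fun a => by simp [(hrun a).spec.1]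

/-- Export: a machine of Mathlib with binary stacks and a time bound. -/
theorem CT.export {f : α → β} (h : CT e f) : ∃ (M : TM2ComputableInTime
    (fun a => (enc a).code) (fun b => (enc b).code) f) (C : ℕ),
    (∀ k, Finite (M.tm.Γ k)) ∧ ∀ n, M.time n ≤ bd e C n := by
  obtain ⟨p, t, h1, ⟨C, h2⟩, -⟩ := h
  have key : ∀ a, Nonempty (TM2OutputsInTime (machine p) (enc a).code (some (enc (f a)).code)
      (bd e C (enc a).code.length + 1)) := fun a =>
    machine_outputs p _ _ _ (((h1 a).mono (h2 a) [] []).cast (by simp) (by simp) le_rfl)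
  refine ⟨{ tm := machine p
            inputAlphabet := Equiv.refl Bool
            outputAlphabet := Equiv.refl Bool
            time := fun n => bd e C n + 1
            outputsFun := fun a => ?_ }, C + 1 + 2, fun _ => (inferInstance : Finite Bool),
    fun n => (Nat.add_le_add_left (le_bd_const 1 n) _).trans (bd_add _ _ _)⟩
  have e : ∀ L : List Bool, List.map (Equiv.refl Bool).invFun L = L := fun L => List.map_id L
  exact (e _).symm ▸ (e _).symm ▸ (key a).some

/-- Export of polynomial time. -/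
theorem CT.exportPoly {f : α → β} (h : CT 0 f) : Nonempty (TM2ComputableInPolyTime
    (fun a => (enc a).code) (fun b => (enc b).code) f) := by
  obtain ⟨M, C, -, hM⟩ := h.export
  refine ⟨{ toTM2ComputableAux := M.toTM2ComputableAux
            time := (4 * Polynomial.X + 4) ^ C
            outputsFun := fun a => ?_ }⟩
  have h1 := M.outputsFun a
  refine { h1 with steps_le_m := h1.steps_le_m.trans ((hM _).trans ?_) }
  simp only [bd, lg, zero_add, pow_one, Polynomial.eval_pow, Polynomial.eval_add,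
    Polynomial.eval_mul, Polynomial.eval_ofNat, Polynomial.eval_X]
  rw [mul_comm, pow_mul]
  refine Nat.pow_le_pow_left ?_ _
  generalize (enc a).code.length = n
  rcases Nat.eq_zero_or_pos n with rfl | hn
  · simp
  · have h2 := Nat.size_pos.mpr hn
    have h3 := Nat.lt_size.mp (show n.size - 1 < n.size by omega)
    rw [show n.size + 1 = n.size - 1 + 2 by omega, pow_add]
    omega

end Vale.Agent.Lib.TM
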