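import Vale.Agent.Lib.CT.Prog

/-!
Binary trees coded as bit strings, and stack programs that transform the tree on top of the main
stack.
-/

open Function

namespace Vale.Agent.Lib.TM

/-- Binary trees. -/
inductive Tr
  | nil
  | cons (a b : Tr)

/-- Prefix code of a tree. -/
def Tr.code : Tr → List Bool
  | .nil => [false]
  | .cons a b => true :: (a.code ++ b.code)

/-- Length of the code. -/
def Tr.size (x : Tr) : ℕ := x.code.length

@[simp] lemma Tr.size_nil : Tr.nil.size = 1 := rfl
@[simp] lemma Tr.size_cons (a b : Tr) : (Tr.cons a b).size = a.size + b.size + 1 := by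
  simp [Tr.size, Tr.code]

lemma Tr.size_pos (x : Tr) : 0 < x.size := by cases x <;> simp

/-- Left subtree. -/
def Tr.car : Tr → Tr
  | .nil => .nil
  | .cons a _ => a

/-- Right subtree. -/
def Tr.cdr : Tr → Tr
  | .nil => .nil
  | .cons _ b => b

lemma Ex.cast {p : Prog} {S S' T T' : St} {c c' : ℕ} (h : Ex p S S' c) (h1 : S = T)
    (h2 : S' = T') (h3 : c ≤ c') : Ex p T T' c' := h1 ▸ h2 ▸ h.mono h3

/-- Bits stored with markers. -/
def dbl : List Bool → List Bool → List Bool
  | [], a => a
  | b :: l, a => dbl l (true :: b :: a)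

lemma dbl_append (l l' a : List Bool) : dbl (l ++ l') a = dbl l' (dbl l a) := by
  induction l generalizing a with
  | nil => rfl
  | cons b l ih => simp [dbl, ih]

/-- Optional storing. -/
def odbl (f : Bool) (l a : List Bool) : List Bool := bif f then dbl l a else a

/-- Emit a bit to the chosen targets. -/
def emit (fa ft b : Bool) : Prog :=
  .seq (bif fa then .seq (.push 1 b) (.push 1 true) else .skip)
    (bif ft then .seq (.push 2 b) (.push 2 true) else .skip)

lemma ex_emit (fa ft b : Bool) (m a t c : List Bool) :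
    Ex (emit fa ft b) (st m a t c) (st m (odbl fa [b] a) (odbl ft [b] t) c) 0 := by
  cases fa <;> cases ft
  · exact (Ex.skip _).seq (Ex.skip _)
  · exact ((Ex.skip _).seq ((Ex.push 2 b _).seq (Ex.push 2 true _))).cast rfl
      (by simp [odbl, dbl]) le_rfl
  · exact (((Ex.push 1 b _).seq (Ex.push 1 true _)).seq (Ex.skip _)).cast rfl
      (by simp [odbl, dbl]) le_rfl
  · exact (((Ex.push 1 b _).seq (Ex.push 1 true _)).seq
      ((Ex.push 2 b _).seq (Ex.push 2 true _))).cast rfl (by simp [odbl, dbl]) le_rfl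

/-- Loop that consumes trees from the main stack. -/
def scanL (fa ft : Bool) : Prog :=
  .loop 3 (.ite 0 (.seq (.pop 0) (.seq (.push 3 true) (.seq (.push 3 true) (emit fa ft true))))
    (.seq (.pop 0) (emit fa ft false)))

lemma odbl_append (f : Bool) (l l' a : List Bool) : odbl f (l ++ l') a = odbl f l' (odbl f l a) := by
  cases f <;> simp [odbl, dbl_append]

lemma ex_scanL (fa ft : Bool) (x : Tr) : ∀ (rest a t c : List Bool) (S' : St) (n : ℕ),
    Ex (scanL fa ft) (st rest (odbl fa x.code a) (odbl ft x.code t) c) S' n →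
    Ex (scanL fa ft) (st (x.code ++ rest) a t (true :: c)) S' (n + x.size) := by
  induction x with
  | nil =>
    intro rest a t c S' n h
    refine (Ex.iter (c := 0) (by simp) (Ex.iteF (by simp [Tr.code]) ?_) h).cast rfl rfl (by simp)
    exact ((Ex.pop 0 _).seq ((ex_emit fa ft false rest a t c).cast (by simp [Tr.code]) rfl
      le_rfl))
  | cons x y ihx ihy =>
    intro rest a t c S' n h
    have e : (Tr.cons x y).code = [true] ++ x.code ++ y.code := by simp [Tr.code]
    rw [e, odbl_append, odbl_append, odbl_append, odbl_append] at h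
    have h2 := ihx _ _ _ _ _ _ (ihy _ _ _ _ _ _ h)
    refine (Ex.iter (c := 0) (by simp) (Ex.iteT (by simp [Tr.code]) ?_) h2).cast rfl rfl
      (by simp; omega)
    exact ((Ex.pop 0 _).seq ((Ex.push 3 true _).seq ((Ex.push 3 true _).seq
      ((ex_emit fa ft true (x.code ++ (y.code ++ rest)) a t (true :: true :: c)).cast
        (by simp [Tr.code]) rfl le_rfl))))

/-- Consume one tree. -/
def scan (fa ft : Bool) : Prog := .seq (.push 3 true) (scanL fa ft)

lemma ex_scan (fa ft : Bool) (x : Tr) (rest a t : List Bool) :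
    Ex (scan fa ft) (st (x.code ++ rest) a t [])
      (st rest (odbl fa x.code a) (odbl ft x.code t) []) (x.size + 1) :=
  ((Ex.push 3 true _).seq ((ex_scanL fa ft x rest a t [] _ 1 (Ex.exit (by simp))).cast
    (by simp) rfl le_rfl)).cast rfl rfl (by omega)

/-- Move stored bits back to the main stack. -/
def back (k : Fin 4) : Prog :=
  .loop k (.ite k (.seq (.pop k) (.push 0 true)) (.seq (.pop k) (.push 0 false)))

lemma ex_back1 (l : List Bool) : ∀ (m a t c : List Bool) (S' : St) (n : ℕ),
    Ex (back 1) (st (l ++ m) a t c) S' n → Ex (back 1) (st m (dbl l a) t c) S' (n + l.length) := by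
  induction l with
  | nil => intro m a t c S' n h; exact h
  | cons b l ih =>
    intro m a t c S' n h
    refine (ih m (true :: b :: a) t c S' (n + 1) ?_).cast rfl rfl (by simp; omega)
    refine (Ex.iter (c := 0) (by simp) ?_ h).cast rfl rfl (by simp)
    cases b
    · exact Ex.iteF (by simp) (((Ex.pop 1 _).seq (Ex.push 0 false _)).cast rfl (by simp) le_rfl)
    · exact Ex.iteT (by simp) (((Ex.pop 1 _).seq (Ex.push 0 true _)).cast rfl (by simp) le_rfl)

lemma ex_back2 (l : List Bool) : ∀ (m a t c : List Bool) (S' : St) (n : ℕ),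
    Ex (back 2) (st (l ++ m) a t c) S' n → Ex (back 2) (st m a (dbl l t) c) S' (n + l.length) := by
  induction l with
  | nil => intro m a t c S' n h; exact h
  | cons b l ih =>
    intro m a t c S' n h
    refine (ih m a (true :: b :: t) c S' (n + 1) ?_).cast rfl rfl (by simp; omega)
    refine (Ex.iter (c := 0) (by simp) ?_ h).cast rfl rfl (by simp)
    cases b
    · exact Ex.iteF (by simp) (((Ex.pop 2 _).seq (Ex.push 0 false _)).cast rfl (by simp) le_rfl)
    · exact Ex.iteT (by simp) (((Ex.pop 2 _).seq (Ex.push 0 true _)).cast rfl (by simp) le_rfl)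

/-- The program turns the tree `x` on top of the main stack into `y` within `t` steps. -/
def Comp (p : Prog) (x y : Tr) (t : ℕ) : Prop :=
  ∀ rest a : List Bool, Ex p (st (x.code ++ rest) a [] []) (st (y.code ++ rest) a [] []) t

lemma Comp.mono {p : Prog} {x y : Tr} {t t' : ℕ} (h : Comp p x y t) (ht : t ≤ t') :
    Comp p x y t' := fun rest a => (h rest a).mono ht

lemma Comp.skip (x : Tr) : Comp .skip x x 0 := fun _ _ => Ex.skip _

lemma Comp.seq {p q : Prog} {x y z : Tr} {t t' : ℕ} (h : Comp p x y t) (h' : Comp q y z t') :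
    Comp (.seq p q) x z (t + t') := fun rest a => (h rest a).seq (h' rest a)

lemma ex_drop (x : Tr) (rest a t : List Bool) :
    Ex (scan false false) (st (x.code ++ rest) a t []) (st rest a t []) (x.size + 1) :=
  ex_scan false false x rest a t

/-- The constant empty tree. -/
def nilP : Prog := .seq (scan false false) (.push 0 false)

lemma Comp.nilP (x : Tr) : Comp nilP x .nil (x.size + 1) := fun rest a =>
  ((ex_drop x rest a []).seq (Ex.push 0 false _)).cast rfl (by simp [Tr.code]) le_rfl

/-- Right subtree. -/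
def cdrP : Prog := .ite 0 (.seq (.pop 0) (scan false false)) .skip

lemma Comp.cdrP (x : Tr) : Comp cdrP x x.cdr (x.size + 1) := fun rest a => by
  cases x with
  | nil => exact Ex.iteF (by simp [Tr.code]) ((Ex.skip _).mono (by omega))
  | cons x y =>
    exact Ex.iteT (by simp [Tr.code]) (((Ex.pop 0 _).seq ((ex_drop x (y.code ++ rest) a []).cast
      (by simp [Tr.code]) rfl le_rfl)).cast rfl rfl (by simp; omega))

/-- Left subtree. -/
def carP : Prog := .ite 0 (.seq (.pop 0) (.seq (scan false true) (.seq (scan false false)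
  (back 2)))) .skip

lemma Comp.carP (x : Tr) : Comp carP x x.car (2 * x.size + 3) := fun rest a => by
  cases x with
  | nil => exact Ex.iteF (by simp [Tr.code]) ((Ex.skip _).mono (by omega))
  | cons x y =>
    have h3 := ex_back2 x.code rest a [] [] _ 1 (Ex.exit (by simp))
    refine Ex.iteT (by simp [Tr.code]) (((Ex.pop 0 _).seq
      (((ex_scan false true x (y.code ++ rest) a []).cast (by simp [Tr.code]) rfl le_rfl).seq
      ((ex_drop y rest _ _).seq h3))).cast rfl rfl ?_)
    simp only [Tr.size_cons]
    unfold Tr.size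
    omega

/-- Pairing. -/
def pairP (f g : Prog) : Prog :=
  .seq (.push 1 false) (.seq (scan true true) (.seq (back 2) (.seq g (.seq (back 1)
    (.seq (.pop 1) (.seq f (.push 0 true)))))))

lemma Comp.pairP {f g : Prog} {x y z : Tr} {t t' : ℕ} (hf : Comp f x y t) (hg : Comp g x z t') :
    Comp (pairP f g) x (.cons y z) (t + t' + 3 * x.size + 3) := fun rest a => by
  have h1 := ex_scan true true x rest (false :: a) []
  have h2 := ex_back2 x.code rest (dbl x.code (false :: a)) [] [] _ 1 (Ex.exit (by simp))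
  have h3 := hg rest (dbl x.code (false :: a))
  have h4 := ex_back1 x.code (z.code ++ rest) (false :: a) [] [] _ 1 (Ex.exit (by simp))
  have h5 := hf (z.code ++ rest) a
  refine ((Ex.push 1 false _).seq ((h1.cast (by simp) rfl le_rfl).seq (h2.seq (h3.seq (h4.seq
    ((Ex.pop 1 _).seq ((h5.cast (by simp) rfl le_rfl).seq (Ex.push 0 true _)))))))).cast rfl
    (by simp [Tr.code]) ?_
  unfold Tr.size
  omega

/-- Branch on the left subtree being empty. -/
def caseP (p q : Prog) : Prog :=
  .seq (.pop 0) (.ite 0 (.seq (scan false false) q) (.seq (.pop 0) p))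

lemma Comp.caseP_nil {p q : Prog} {y z : Tr} {t : ℕ} (h : Comp p y z t) :
    Comp (caseP p q) (.cons .nil y) z t := fun rest a =>
  ((Ex.pop 0 _).seq (Ex.iteF (by simp [Tr.code]) ((Ex.pop 0 _).seq ((h rest a).cast
    (by simp [Tr.code]) rfl le_rfl)))).cast rfl rfl (by omega)

lemma Comp.caseP_cons {p q : Prog} {u v y z : Tr} {t : ℕ} (h : Comp q y z t) :
    Comp (caseP p q) (.cons (.cons u v) y) z (t + (Tr.cons u v).size + 1) := fun rest a =>
  ((Ex.pop 0 _).seq (Ex.iteT (by simp [Tr.code])
    (((ex_drop (.cons u v) (y.code ++ rest) a []).cast (by simp [Tr.code]) rfl le_rfl).seq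
      (h rest a)))).cast rfl rfl (by omega)

/-- Repeat while the left subtree is nonempty. -/
def loopP (c : Prog) : Prog :=
  .seq (.pop 0) (.seq (.loop 0 (.seq (.push 0 true) (.seq (scan false false) (.seq c (.pop 0)))))
    (.pop 0))

lemma ex_loop (c : Prog) (B : ℕ) (rest a : List Bool) : ∀ (N : ℕ) (t y : ℕ → Tr),
    (∀ k < N, t k ≠ .nil ∧ (t k).size ≤ B ∧ Comp c (y k) (.cons (t (k + 1)) (y (k + 1))) B) →
    t N = .nil →
    Ex (.loop 0 (.seq (.push 0 true) (.seq (scan false false) (.seq c (.pop 0)))))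
      (st ((t 0).code ++ ((y 0).code ++ rest)) a [] []) (st (false :: ((y N).code ++ rest)) a [] [])
      (N * (2 * B + 2) + 1) := by
  intro N
  induction N with
  | zero =>
    intro t y _ h0
    exact (Ex.exit (by simp [h0, Tr.code])).cast rfl (by simp [h0, Tr.code]) (by omega)
  | succ N ih =>
    intro t y h hN
    obtain ⟨h1, h2, h3⟩ := h 0 (by omega)
    have h4 := ih (fun k => t (k + 1)) (fun k => y (k + 1)) (fun k hk => h (k + 1) (by omega)) hN
    obtain ⟨u, v, huv⟩ : ∃ u v, t 0 = .cons u v := by
      cases h5 : t 0 with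
      | nil => exact absurd h5 h1
      | cons u v => exact ⟨u, v, rfl⟩
    refine (Ex.iter (c := 2 * B + 1) (by simp [huv, Tr.code]) ?_ h4).cast rfl rfl
      (by ring_nf; omega)
    exact ((Ex.push 0 true _).seq (((ex_drop (t 0) ((y 0).code ++ rest) a []).cast
      (by simp [huv, Tr.code]) rfl le_rfl).seq ((h3 rest a).seq (Ex.pop 0 _)))).cast rfl
      (by simp [Tr.code]) (by omega)

lemma Comp.loopP {c : Prog} {B N : ℕ} {t y : ℕ → Tr}
    (h : ∀ k < N, t k ≠ .nil ∧ (t k).size ≤ B ∧ Comp c (y k) (.cons (t (k + 1)) (y (k + 1))) B)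
    (hN : t N = .nil) : Comp (loopP c) (.cons (t 0) (y 0)) (y N) (N * (2 * B + 2) + 1) :=
  fun rest a => ((Ex.pop 0 _).seq (((ex_loop c B rest a N t y h hN).cast (by simp [Tr.code]) rfl
    le_rfl).seq (Ex.pop 0 _))).cast rfl (by simp) (by omega)

end Vale.Agent.Lib.TM
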